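import Vale.Agent.P321.H834.TBasic

/-!
# LB2, T-step: coarse pairs near the centre, MIDDLE (helper834)
-/

namespace Vale.Agent.P321.H834

open Finset Vale.Agent.P321.H576

section

variable {V : Type} [AddCommGroup V] [Module ℝ V]

/-- `δ_w - δ_w'` at cell `T`, a `v` with label `j` at cell `t` -/
noncomputable def Ph (B : Finset ℤ → V) (C : ℤ) (w w' : ℕ) (T t : ℤ) (j : ℕ) : V :=
  B {C * T + w, C * t + j} - B {C * T + w', C * t + j}

omit [Module ℝ V] in
lemma GG_eq (B : Finset ℤ → V) (C : ℤ) (w w' : ℕ) (lp lm : ℤ → ℕ) (T t : ℤ) :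
    GG B C w w' lp lm T t = Ph B C w w' T t (lm t) + Ph B C w w' T t (lp t) := rfl

variable {k m : ℕ} {d : Fin k → ℤ} {g : E k → Fin m → ℤ} {F Q G C : ℤ}
  {l : Finset (Fin k) → ℕ} {w w' Lb : ℕ} {lp lm : ℤ → ℕ}

/-- the defect coefficients at tops -/
noncomputable def cc (k : ℕ) (l : Finset (Fin k) → ℕ) (w w' : ℕ) (j : ℕ) : ℝ :=
  (if j = w then 1 else 0) + (if j = w' then 1 else 0)
    - 2 * ∑ K ∈ H505.smallK k, (H505.co k K.card : ℝ) * (if j = l K then 1 else 0)

lemma sum_cc {W : Type*} [AddCommGroup W] [Module ℝ W] (hP : PR m l w w' Lb) (f : ℕ → W) :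
    ∑ j ∈ range (Lb + 1), cc k l w w' j • f j
      = f w + f w' - (2:ℝ) • ∑ K ∈ H505.smallK k, (H505.co k K.card : ℝ) • f (l K) := by
  have hw : w ∈ range (Lb + 1) := by have := hP.hw; simp; omega
  have hw' : w' ∈ range (Lb + 1) := by have := hP.hw'; simp; omega
  have hl : ∀ K, l K ∈ range (Lb + 1) := fun K => by have := hP.hl K; simp; omega
  unfold cc
  have h1 : ∀ j, ((if j = w then (1:ℝ) else 0) + (if j = w' then 1 else 0)
      - 2 * ∑ K ∈ H505.smallK k, (H505.co k K.card : ℝ) * (if j = l K then 1 else 0)) • f j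
      = (if j = w then f j else 0) + (if j = w' then f j else 0)
        - (2:ℝ) • ∑ K ∈ H505.smallK k, (H505.co k K.card : ℝ) • (if j = l K then f j else 0) := by
    intro j
    rw [sub_smul, add_smul]
    congr 1
    · congr 1 <;> split_ifs <;> simp
    · rw [mul_smul, Finset.sum_smul]
      congr 1
      apply Finset.sum_congr rfl
      intro K _
      rw [mul_smul]
      split_ifs <;> simp
  rw [Finset.sum_congr rfl (fun j _ => h1 j), Finset.sum_sub_distrib, Finset.sum_add_distrib,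
    ← Finset.smul_sum, Finset.sum_comm]
  congr 1
  · rw [Finset.sum_ite_eq' , Finset.sum_ite_eq', if_pos hw, if_pos hw']
  · congr 1
    apply Finset.sum_congr rfl
    intro K _
    rw [← Finset.smul_sum, Finset.sum_ite_eq', if_pos (hl K)]

lemma cc_moment (hP : PR m l w w' Lb) (i : ℕ) (hi : i < m) :
    ∑ j ∈ range (Lb + 1), cc k l w w' j * (j : ℝ) ^ i = 0 := by
  have h := sum_cc (k := k) hP (fun j => (j : ℝ) ^ i)
  simp only [smul_eq_mul] at h
  rw [h]
  have h2 := hP.mom i hi
  have h3 : ((w : ℝ)) ^ i + (w' : ℝ) ^ i = 2 * ∑ K ∈ H505.smallK k, (H505.co k K.card : ℝ) * (l K : ℝ) ^ i := by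
    exact_mod_cast h2
  rw [h3]
  ring

lemma sum_abs_cc (hP : PR m l w w' Lb) :
    ∑ j ∈ range (Lb + 1), |cc k l w w' j| ≤ 2 + 4 * (k : ℝ) ^ 2 := by
  have hw : w ∈ range (Lb + 1) := by have := hP.hw; simp; omega
  have hw' : w' ∈ range (Lb + 1) := by have := hP.hw'; simp; omega
  have hl : ∀ K, l K ∈ range (Lb + 1) := fun K => by have := hP.hl K; simp; omega
  have h1 : ∀ j, |cc k l w w' j| ≤ (if j = w then (1:ℝ) else 0) + (if j = w' then 1 else 0)
      + 2 * ∑ K ∈ H505.smallK k, |(H505.co k K.card : ℝ)| * (if j = l K then 1 else 0) := by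
    intro j
    unfold cc
    refine (abs_sub _ _).trans ?_
    refine add_le_add ?_ ?_
    · refine (abs_add_le _ _).trans (add_le_add ?_ ?_) <;> split_ifs <;> simp
    · rw [abs_mul, abs_two]
      refine mul_le_mul_of_nonneg_left ?_ (by norm_num)
      refine (Finset.abs_sum_le_sum_abs _ _).trans (Finset.sum_le_sum fun K _ => ?_)
      rw [abs_mul]
      refine mul_le_mul_of_nonneg_left ?_ (abs_nonneg _)
      split_ifs <;> simp
  refine (Finset.sum_le_sum fun j _ => h1 j).trans ?_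
  rw [Finset.sum_add_distrib, Finset.sum_add_distrib, ← Finset.mul_sum, Finset.sum_comm,
    Finset.sum_ite_eq', Finset.sum_ite_eq', if_pos hw, if_pos hw']
  have h2 : ∑ K ∈ H505.smallK k, ∑ j ∈ range (Lb + 1), |(H505.co k K.card : ℝ)| * (if j = l K then 1 else 0)
      = ∑ K ∈ H505.smallK k, |(H505.co k K.card : ℝ)| := by
    apply Finset.sum_congr rfl
    intro K _
    rw [← Finset.mul_sum, Finset.sum_ite_eq', if_pos (hl K), mul_one]
  rw [h2]
  have h3 : ∑ K ∈ H505.smallK k, |(H505.co k K.card : ℝ)| ≤ 2 * (k:ℝ)^2 := sum_abs_co_real k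
  linarith

/-- the error at the tops -/
noncomputable def Er (B : Finset ℤ → V) (C : ℤ) (k : ℕ) (l : Finset (Fin k) → ℕ) (w w' Lb : ℕ)
    (T t : ℤ) : V :=
  ∑ j ∈ range (Lb + 1), cc k l w w' j • Ph B C w w' T t j

/-- main part -/
noncomputable def Mn (B : Finset ℤ → V) (C : ℤ) {k m : ℕ} (d : Fin k → ℤ)
    (g : E k → Fin m → ℤ) (l : Finset (Fin k) → ℕ) (w w' : ℕ) (T t : ℤ) : V :=
  (2 : ℝ) • ∑ K ∈ H505.smallK k, (H505.co k K.card : ℝ) • Ph B C w w' T t (l (K ∩ act d g t))

open Classical in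
lemma GG_dec (hG : Gen d g F Q G) (hP : PR m l w w' Lb) (hL : Lab d g Q l w w' Lb lp lm)
    (B : Finset ℤ → V) (T t : ℤ) (ht : |t| ≤ Q) :
    GG B C w w' lp lm T t = Mn B C d g l w w' T t
      + (if Top g t then Er B C k l w w' Lb T t else 0) := by
  have hk := hG.k3
  rw [GG_eq]
  by_cases htop : Top g t
  · rw [if_pos htop]
    have h1 : Ph B C w w' T t (lm t) + Ph B C w w' T t (lp t)
        = Ph B C w w' T t w + Ph B C w w' T t w' := by
      obtain ⟨n0, n, rfl⟩ := htop
      have habs : |H576.sg n0 * sgE n| = 1 := by rw [abs_mul, abs_sg', abs_sgE, one_mul]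
      rcases eq_or_eq_neg_of_abs_eq habs with h | h
      · obtain ⟨h2, h3⟩ := hL.top1 n0 n h
        rw [h2, h3, add_comm]
      · obtain ⟨h2, h3⟩ := hL.top2 n0 n h
        rw [h2, h3]
    rw [h1]
    unfold Er Mn
    rw [sum_cc hP, act_top htop]
    simp only [inter_univ]
    abel
  · rw [if_neg htop, add_zero]
    have h2 : lm t = lp t := (hL.eq t htop).symm
    rw [h2, hL.cen t ht htop, ← two_smul ℝ]
    unfold Mn
    congr 1
    have h3 := cell_id (by omega : 2 ≤ k) (fun J => Ph B C w w' T t (l J)) (act d g t)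
      (gen_act_card hG ht htop)
    rw [← h3]
    apply Finset.sum_congr rfl
    intro K _
    simp only [← Int.cast_smul_eq_zsmul ℝ]

lemma Er_le (p : Seminorm ℝ V) (B : Finset ℤ → V) (hG : Gen d g F Q G) (hP : PR m l w w' Lb)
    {κP : ℝ} (hκ : 0 ≤ κP) (hC : 4 * (Lb : ℤ) ≤ C) (hC1 : 1 ≤ C)
    (hK : KillP p B m Lb C Q F κP) (T t : ℤ) (hT : 2 * |T| ≤ Q) (ht : |t| ≤ Q) (hd : F < |t - T|) :
    p (Er B C k l w w' Lb T t) ≤ 2 * (2 + 4 * (k : ℝ) ^ 2) * κP := by
  have hk := hG.k3
  have hF := gen_Fpos hG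
  have hFQ := hG.FQ
  have hQ1 : 1 ≤ Q := by linarith
  have hlb : ∀ j : ℕ, j ≤ Lb → 4 * (j : ℤ) ≤ C := fun j hj => by
    have : (j : ℤ) ≤ Lb := by exact_mod_cast hj
    linarith
  have hone : ∀ j : ℕ, j ≤ Lb →
      p (∑ i ∈ range (Lb + 1), cc k l w w' i • B {C * t + i, C * T + j})
        ≤ (∑ i ∈ range (Lb + 1), |cc k l w w' i|) * κP := by
    intro j hj
    have hj4 := hlb j hj
    refine hK (C * t) (C * T + j) ?_ ?_ ?_ ℕ (range (Lb + 1)) (cc k l w w') (fun i => i) ?_ ?_
    · rw [abs_mul, abs_of_nonneg (by linarith : (0:ℤ) ≤ C)]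
      exact mul_le_mul_of_nonneg_left ht (by linarith)
    · refine (abs_add_le _ _).trans ?_
      rw [abs_mul, abs_of_nonneg (by linarith : (0:ℤ) ≤ C), Nat.abs_cast]
      have h1 : C * (2 * |T|) ≤ C * Q := mul_le_mul_of_nonneg_left hT (by linarith)
      have h2 : C * 1 ≤ C * Q := mul_le_mul_of_nonneg_left hQ1 (by linarith)
      linarith
    · have h1 : C * (F + 1) ≤ C * |t - T| := mul_le_mul_of_nonneg_left (by linarith) (by linarith)
      have h2 : |C * t - (C * T + j)| ≥ C * |t - T| - j := by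
        have h3 : C * |t - T| = |C * (t - T)| := by
          rw [abs_mul, abs_of_nonneg (by linarith : (0:ℤ) ≤ C)]
        rw [h3]
        have h4 : C * (t - T) = (C * t - (C * T + j)) + j := by ring
        have h5 : |C * (t - T)| ≤ |C * t - (C * T + j)| + |(j:ℤ)| := by
          rw [h4]; exact abs_add_le _ _
        rw [Nat.abs_cast] at h5
        linarith
      have h6 : C * F ≥ C * 1 := mul_le_mul_of_nonneg_left hF (by linarith)
      nlinarith
    · intro i hi
      simp at hi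
      omega
    · exact fun i hi => cc_moment hP i hi
  have hsplit : Er B C k l w w' Lb T t
      = ∑ i ∈ range (Lb + 1), cc k l w w' i • B {C * t + i, C * T + w}
        - ∑ i ∈ range (Lb + 1), cc k l w w' i • B {C * t + i, C * T + w'} := by
    unfold Er Ph
    rw [← Finset.sum_sub_distrib]
    apply Finset.sum_congr rfl
    intro i _
    rw [smul_sub, Finset.pair_comm (C * T + w), Finset.pair_comm (C * T + w')]
  rw [hsplit]
  refine (map_sub_le_add p _ _).trans ?_
  have h1 := hone w hP.hw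
  have h2 := hone w' hP.hw'
  have h3 := sum_abs_cc (k := k) hP
  have := mul_le_mul_of_nonneg_right h3 hκ
  linarith

/-- fibre sums of the main part -/
lemma Ph_kill (p : Seminorm ℝ V) (B : Finset ℤ → V) (hG : Gen d g F Q G)
    (hl : ∀ K, l K ≤ Lb) (hw : w ≤ Lb) (hw' : w' ≤ Lb)
    {κ : ℝ} (hC : 4 * (Lb : ℤ) ≤ C) (hC1 : 1 ≤ C) (hK : KillE p B g C Q κ)
    (K : Finset (Fin k)) (e : E k) (hKe : K ⊆ e.1) (n : E k → Fin m → Bool) (z h : ℤ)
    (hz : 2 * |z| ≤ F) (hh : 2 * |h| ≤ Q) :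
    p (∑ x : Fin m → Bool, H834.sg x • Ph B C w w' (z + S g (Function.update n e x))
        (S g (Function.update n e x) + h)
        (l (K ∩ act d g (S g (Function.update n e x) + h)))) ≤ 2 * κ := by
  have hF := gen_Fpos hG
  have hFQ := hG.FQ
  have hQ1 : 1 ≤ Q := by linarith
  set s0 := S g (Function.update n e (fun _ => false)) with hs0
  set lam0 := l (K ∩ act d g (s0 + h)) with hlam0
  have hs1 : 0 ≤ s0 := gen_S_nonneg hG _
  have hs2 : 16 * s0 ≤ Q := gen_S_le hG _
  have hlam : ∀ x : Fin m → Bool,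
      l (K ∩ act d g (S g (Function.update n e x) + h)) = lam0 := by
    intro x
    rw [hlam0, S_update, ← hs0]
    congr 1
    have : s0 + Te (g e) (fun b => H576.val (x b)) + h
        = (s0 + h) + Te (g e) (fun b => H576.val (x b)) := by ring
    rw [this]
    apply inter_act_add
    intro i hi
    exact dvd_Te _ _ (fun b => hG.dvd i e b (hKe hi))
  have hlb : ∀ j : ℕ, j ≤ Lb → 4 * (j : ℤ) ≤ C := fun j hj => by
    have : (j : ℤ) ≤ Lb := by exact_mod_cast hj
    linarith
  have hbd : ∀ (y : ℤ) (j : ℕ), 4 * |y| ≤ 3 * Q → j ≤ Lb → |C * y + j| ≤ C * Q := by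
    intro y j hy hj
    have hj4 := hlb j hj
    refine (abs_add_le _ _).trans ?_
    rw [abs_mul, abs_of_nonneg (by linarith : (0:ℤ) ≤ C), Nat.abs_cast]
    have h1 : C * (4 * |y|) ≤ C * (3 * Q) := mul_le_mul_of_nonneg_left hy (by linarith)
    have h2 : C * 1 ≤ C * Q := mul_le_mul_of_nonneg_left hQ1 (by linarith)
    linarith
  have hy1 : 4 * |z + s0| ≤ 3 * Q := by
    have := abs_add_le z s0
    rw [abs_of_nonneg hs1] at this
    linarith
  have hy2 : 4 * |s0 + h| ≤ 3 * Q := by
    have := abs_add_le s0 h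
    rw [abs_of_nonneg hs1] at this
    linarith
  have hone : ∀ j : ℕ, j ≤ Lb →
      p (∑ x : Fin m → Bool, H834.sg x • B {C * (z + S g (Function.update n e x)) + j,
        C * (S g (Function.update n e x) + h) + lam0}) ≤ κ := by
    intro j hj
    have h1 := hK e {C * (z + s0) + j, C * (s0 + h) + lam0}
      ((Finset.card_le_two).trans (by norm_num)) (by
        intro x hx
        simp only [mem_insert, mem_singleton] at hx
        rcases hx with rfl | rfl
        · exact hbd _ _ hy1 hj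
        · exact hbd _ _ hy2 (by rw [hlam0]; exact hl _))
    refine le_trans (le_of_eq ?_) h1
    congr 1
    apply Finset.sum_congr rfl
    intro x _
    rw [sg_eq]
    congr 2
    rw [image_insert, image_singleton, S_update, ← hs0]
    congr 1
    · ring
    · congr 1
      ring
  have hsplit : ∑ x : Fin m → Bool, H834.sg x • Ph B C w w' (z + S g (Function.update n e x))
        (S g (Function.update n e x) + h)
        (l (K ∩ act d g (S g (Function.update n e x) + h)))
      = ∑ x : Fin m → Bool, H834.sg x • B {C * (z + S g (Function.update n e x)) + w,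
        C * (S g (Function.update n e x) + h) + lam0}
      - ∑ x : Fin m → Bool, H834.sg x • B {C * (z + S g (Function.update n e x)) + w',
        C * (S g (Function.update n e x) + h) + lam0} := by
    rw [← Finset.sum_sub_distrib]
    apply Finset.sum_congr rfl
    intro x _
    rw [hlam x]
    unfold Ph
    rw [smul_sub]
  rw [hsplit]
  refine (map_sub_le_add p _ _).trans ?_
  have := hone w hw
  have := hone w' hw'
  linarith

end

/-- **MIDDLE** -/
theorem middle {V : Type} [AddCommGroup V] [Module ℝ V] (p : Seminorm ℝ V) (B : Finset ℤ → V)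
    {k m : ℕ} (d : Fin k → ℤ) (g : E k → Fin m → ℤ) (F Q G C : ℤ)
    (l : Finset (Fin k) → ℕ) (w w' Lb : ℕ) (lp lm : ℤ → ℕ) (κ κP : ℝ)
    (hG : Gen d g F Q G) (hP : PR m l w w' Lb) (hL : Lab d g Q l w w' Lb lp lm)
    (hC : 4 * (Lb : ℤ) ≤ C) (hC1 : 1 ≤ C) (hκP : 0 ≤ κP)
    (hKE : KillE p B g C Q κ) (hKP : KillP p B m Lb C Q F κP) :
    p (∑ n0 : Fin m → Bool, ∑ n : E k → Fin m → Bool, (H576.sg n0 * sgE n) •
            ∑ h ∈ Icc (-Q) Q with 2 * |h| ≤ Q ∧ 2 * F < |h - Z n0|,
              GG B C w w' lp lm (Z n0 + S g n) (S g n + h))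
      ≤ 2 ^ (k ^ 2 * m + m + 4) * (2 * (Q : ℝ) + 1) * (k + 2) ^ 4 * (κ + κP) := by
  classical
  have hk := hG.k3
  have hF := gen_Fpos hG
  have hFQ := hG.FQ
  have hQ1 : 1 ≤ Q := by linarith
  obtain ⟨e0, -⟩ := exists_dir (k := k) (by omega) (K := ∅) (by simp)
  have hκ : 0 ≤ κ := (apply_nonneg p _).trans (hKE e0 ∅ (by simp) (by simp))
  -- one pair `(n0, h)`
  set β : ℝ := 2 * (∑ K ∈ H505.smallK k, |(H505.co k K.card : ℝ)| * (2 ^ (k ^ 2 * m) * (2 * κ)))
    + 2 ^ (k ^ 2 * m) * (2 * (2 + 4 * (k : ℝ) ^ 2) * κP) with hβ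
  have hone : ∀ (n0 : Fin m → Bool) (h : ℤ), 2 * |h| ≤ Q → 2 * F < |h - Z n0| →
      p (∑ n : E k → Fin m → Bool, sgE n • GG B C w w' lp lm (Z n0 + S g n) (S g n + h)) ≤ β := by
    intro n0 h hh hhz
    have hz := gen_Z_le hG n0
    have hcen : ∀ n : E k → Fin m → Bool, |S g n + h| ≤ Q := by
      intro n
      have h1 := gen_S_nonneg hG n
      have h2 := gen_S_le hG n
      have := abs_add_le (S g n) h
      rw [abs_of_nonneg h1] at this
      linarith
    have hdec : ∑ n : E k → Fin m → Bool, sgE n • GG B C w w' lp lm (Z n0 + S g n) (S g n + h)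
        = (2:ℝ) • (∑ K ∈ H505.smallK k, (H505.co k K.card : ℝ) • ∑ n : E k → Fin m → Bool, sgE n •
            Ph B C w w' (Z n0 + S g n) (S g n + h) (l (K ∩ act d g (S g n + h))))
          + ∑ n : E k → Fin m → Bool, sgE n •
            (if Top g (S g n + h) then Er B C k l w w' Lb (Z n0 + S g n) (S g n + h) else 0) := by
      have h1 : ∀ n : E k → Fin m → Bool,
          sgE n • GG B C w w' lp lm (Z n0 + S g n) (S g n + h)
          = (2:ℝ) • (∑ K ∈ H505.smallK k, (H505.co k K.card : ℝ) • (sgE n •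
            Ph B C w w' (Z n0 + S g n) (S g n + h) (l (K ∩ act d g (S g n + h)))))
          + sgE n •
            (if Top g (S g n + h) then Er B C k l w w' Lb (Z n0 + S g n) (S g n + h) else 0) := by
        intro n
        rw [GG_dec hG hP hL B _ _ (hcen n), smul_add]
        congr 1
        unfold Mn
        rw [smul_comm, Finset.smul_sum]
        congr 1
        apply Finset.sum_congr rfl
        intro K _
        rw [smul_comm]
      rw [Finset.sum_congr rfl (fun n _ => h1 n), Finset.sum_add_distrib]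
      congr 1
      rw [← Finset.smul_sum, Finset.sum_comm]
      congr 1
      apply Finset.sum_congr rfl
      intro K _
      rw [Finset.smul_sum]
    rw [hdec]
    refine (map_add_le_add p _ _).trans ?_
    rw [hβ]
    refine add_le_add ?_ ?_
    · rw [map_smul_eq_mul, Real.norm_eq_abs, abs_two]
      refine mul_le_mul_of_nonneg_left ?_ (by norm_num)
      refine (Finset.le_sum_of_subadditive p (map_zero p).le (map_add_le_add p) _ _).trans ?_
      refine Finset.sum_le_sum fun K hK => ?_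
      rw [map_smul_eq_mul, Real.norm_eq_abs]
      refine mul_le_mul_of_nonneg_left ?_ (abs_nonneg _)
      have hKc : K.card ≤ 2 := H505.mem_smallK.1 hK
      obtain ⟨e, he⟩ := exists_dir (k := k) (by omega) hKc
      have h1 := fubini_kill p e
        (fun n : E k → Fin m → Bool => Ph B C w w' (Z n0 + S g n) (S g n + h)
          (l (K ∩ act d g (S g n + h)))) (2 * κ)
        (fun n => Ph_kill p B hG hP.hl hP.hw hP.hw' hC hC1 hKE K e he n (Z n0) h hz hh)
      refine h1.trans (mul_le_mul_of_nonneg_right ?_ (by linarith))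
      refine pow_le_pow_right₀ (by norm_num) ?_
      have h2 := card_E_le k
      calc m * (Fintype.card (E k) - 1) ≤ m * k ^ 2 := Nat.mul_le_mul_left _ (by omega)
        _ = k ^ 2 * m := by ring
    · refine (Finset.le_sum_of_subadditive p (map_zero p).le (map_add_le_add p) _ _).trans ?_
      have h1 : ∀ n ∈ (univ : Finset (E k → Fin m → Bool)), p (sgE n •
          (if Top g (S g n + h) then Er B C k l w w' Lb (Z n0 + S g n) (S g n + h) else 0))
          ≤ 2 * (2 + 4 * (k : ℝ) ^ 2) * κP := by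
        intro n _
        rw [map_smul_eq_mul, Real.norm_eq_abs, abs_sgE, one_mul]
        split_ifs with htop
        · refine Er_le p B hG hP hκP hC hC1 hKP _ _ ?_ (hcen n) ?_
          · have h1 := gen_S_nonneg hG n
            have h2 := gen_S_le hG n
            have := abs_add_le (Z n0) (S g n)
            rw [abs_of_nonneg h1] at this
            linarith
          · have : S g n + h - (Z n0 + S g n) = h - Z n0 := by ring
            rw [this]
            linarith
        · rw [map_zero]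
          positivity
      refine (Finset.sum_le_sum h1).trans ?_
      rw [Finset.sum_const, nsmul_eq_mul]
      refine mul_le_mul_of_nonneg_right ?_ (by positivity)
      rw [Finset.card_univ, Fintype.card_fun, Fintype.card_fun, Fintype.card_bool, Fintype.card_fin]
      push_cast
      rw [← pow_mul]
      refine pow_le_pow_right₀ (by norm_num) ?_
      have h2 := card_E_le k
      calc m * Fintype.card (E k) ≤ m * k ^ 2 := Nat.mul_le_mul_left _ h2
        _ = k ^ 2 * m := by ring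
  have hβ0 : 0 ≤ β := by rw [hβ]; positivity
  have hβle : β ≤ 2 ^ (k ^ 2 * m) * (8 * (k + 2) ^ 4 * (κ + κP)) := by
    have h3 : ∑ K ∈ H505.smallK k, |(H505.co k K.card : ℝ)| ≤ 2 * (k:ℝ)^2 := sum_abs_co_real k
    rw [hβ, ← Finset.sum_mul]
    have hk0 : (0:ℝ) ≤ k := Nat.cast_nonneg k
    have e1 : (∑ K ∈ H505.smallK k, |(H505.co k K.card : ℝ)|) * (2 ^ (k ^ 2 * m) * (2 * κ))
        ≤ 2 * (k:ℝ)^2 * (2 ^ (k ^ 2 * m) * (2 * κ)) :=
      mul_le_mul_of_nonneg_right h3 (by positivity)
    have e2 : 8 * (k:ℝ)^2 * κ + 2 * (2 + 4 * (k:ℝ)^2) * κP ≤ 8 * (k + 2) ^ 4 * (κ + κP) := by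
      have h5 : 8 * (k:ℝ)^2 + 4 ≤ 8 * (k + 2) ^ 4 := by nlinarith [sq_nonneg ((k:ℝ)), mul_nonneg hk0 hk0, pow_nonneg hk0 3, pow_nonneg hk0 4]
      nlinarith [mul_le_mul_of_nonneg_right h5 hκ, mul_le_mul_of_nonneg_right h5 hκP]
    have e3 := mul_le_mul_of_nonneg_left e2 (show (0:ℝ) ≤ 2 ^ (k ^ 2 * m) by positivity)
    nlinarith [e1, e3]
  -- sum over `n0`, `h`
  have hswap : ∑ n0 : Fin m → Bool, ∑ n : E k → Fin m → Bool, (H576.sg n0 * sgE n) •
            ∑ h ∈ Icc (-Q) Q with 2 * |h| ≤ Q ∧ 2 * F < |h - Z n0|,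
              GG B C w w' lp lm (Z n0 + S g n) (S g n + h)
      = ∑ n0 : Fin m → Bool, ∑ h ∈ Icc (-Q) Q with 2 * |h| ≤ Q ∧ 2 * F < |h - Z n0|,
          H576.sg n0 • ∑ n : E k → Fin m → Bool, sgE n •
              GG B C w w' lp lm (Z n0 + S g n) (S g n + h) := by
    apply Finset.sum_congr rfl
    intro n0 _
    simp only [Finset.smul_sum]
    rw [Finset.sum_comm]
    apply Finset.sum_congr rfl
    intro h _
    apply Finset.sum_congr rfl
    intro n _
    rw [mul_smul]
  rw [hswap]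
  refine (Finset.le_sum_of_subadditive p (map_zero p).le (map_add_le_add p) _ _).trans ?_
  have h1 : ∀ n0 ∈ (univ : Finset (Fin m → Bool)),
      p (∑ h ∈ Icc (-Q) Q with 2 * |h| ≤ Q ∧ 2 * F < |h - Z n0|,
          H576.sg n0 • ∑ n : E k → Fin m → Bool, sgE n •
              GG B C w w' lp lm (Z n0 + S g n) (S g n + h)) ≤ (2 * (Q:ℝ) + 1) * β := by
    intro n0 _
    refine (Finset.le_sum_of_subadditive p (map_zero p).le (map_add_le_add p) _ _).trans ?_
    have h2 : ∀ h ∈ (Icc (-Q) Q).filter (fun h => 2 * |h| ≤ Q ∧ 2 * F < |h - Z n0|),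
        p (H576.sg n0 • ∑ n : E k → Fin m → Bool, sgE n •
              GG B C w w' lp lm (Z n0 + S g n) (S g n + h)) ≤ β := by
      intro h hh
      rw [Finset.mem_filter] at hh
      rw [map_smul_eq_mul, Real.norm_eq_abs, abs_sg', one_mul]
      exact hone n0 h hh.2.1 hh.2.2
    refine (Finset.sum_le_sum h2).trans ?_
    rw [Finset.sum_const, nsmul_eq_mul]
    refine mul_le_mul_of_nonneg_right ?_ hβ0
    have h3 : ((Icc (-Q) Q).filter (fun h => 2 * |h| ≤ Q ∧ 2 * F < |h - Z n0|)).card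
        ≤ (Icc (-Q) Q).card := Finset.card_filter_le _ _
    have h4 : (((Icc (-Q) Q).card : ℕ) : ℤ) = 2 * Q + 1 := by
      rw [Int.card_Icc]
      rw [Int.toNat_of_nonneg (by linarith)]
      ring
    have h5 : (((Icc (-Q) Q).card : ℕ) : ℝ) = 2 * (Q:ℝ) + 1 := by exact_mod_cast h4
    rw [← h5]
    exact_mod_cast h3
  refine (Finset.sum_le_sum h1).trans ?_
  rw [Finset.sum_const, nsmul_eq_mul, Finset.card_univ, Fintype.card_fun, Fintype.card_bool,
    Fintype.card_fin]
  have hQ0 : (0:ℝ) ≤ 2 * (Q:ℝ) + 1 := by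
    have : (1:ℝ) ≤ (Q:ℝ) := by exact_mod_cast hQ1
    linarith
  calc ((2 ^ m : ℕ) : ℝ) * ((2 * (Q:ℝ) + 1) * β)
      ≤ ((2 ^ m : ℕ) : ℝ) * ((2 * (Q:ℝ) + 1) *
          (2 ^ (k ^ 2 * m) * (8 * (k + 2) ^ 4 * (κ + κP)))) := by
        refine mul_le_mul_of_nonneg_left ?_ (by positivity)
        exact mul_le_mul_of_nonneg_left hβle hQ0
    _ ≤ 2 ^ (k ^ 2 * m + m + 4) * (2 * (Q : ℝ) + 1) * (k + 2) ^ 4 * (κ + κP) := by
        push_cast
        have e1 : (2:ℝ) ^ (k ^ 2 * m + m + 4) = 2 ^ m * 2 ^ (k ^ 2 * m) * 16 := by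
          rw [pow_add, pow_add]; ring
        rw [e1]
        have e2 : (0:ℝ) ≤ 2 ^ m * 2 ^ (k ^ 2 * m) * (2 * (Q : ℝ) + 1) * (k + 2) ^ 4 * (κ + κP) := by
          positivity
        nlinarith [e2]

end Vale.Agent.P321.H834
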