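import Vale.Agent.P321.H834.Red
import Vale.Agent.P321.H834.Middle
import Vale.Agent.P321.H776.Far

/-!
# LB2, T-step: the coarse pairs (C) (helper834, FAR by helper776)
-/

namespace Vale.Agent.P321.H834

open Finset Vale.Agent.P321.H576

/-- **(C)**: 576's `StCoarse` with the extra hypothesis `0 ≤ κP`. -/
theorem coarse (V : Type) [AddCommGroup V] [Module ℝ V] (p : Seminorm ℝ V) (B : Finset ℤ → V)
    {k m : ℕ} (d : Fin k → ℤ) (g : E k → Fin m → ℤ) (F Q G C L1 L2 : ℤ)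
    (l : Finset (Fin k) → ℕ) (w w' Lb : ℕ) (lp lm : ℤ → ℕ) (κ κ0 κP : ℝ)
    (hG : Gen d g F Q G) (hP : PR m l w w' Lb) (hL : Lab d g Q l w w' Lb lp lm)
    (hC : 4 * (Lb : ℤ) ≤ C) (hC1 : 1 ≤ C) (hL1 : Q ≤ L1) (hL2 : Q ≤ L2)
    (hKE : KillE p B g C Q κ) (hK0 : Kill0 p B m C Q κ0) (hKP : KillP p B m Lb C Q F κP)
    (hκP : 0 ≤ κP) :
    p (∑ A ∈ (Icc (-L1) L2).powerset with A.card = 2 ∧ ¬ Fine F A, Dl B C lp lm A)
      ≤ 2 ^ (k ^ 2 * m + m + 4) * ((L1 : ℝ) + L2 + 1) * (k + 2) ^ 4 * (κ + κ0 + κP) := by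
  have hk := hG.k3
  have hF := gen_Fpos hG
  have hFQ := hG.FQ
  have hQ1 : 1 ≤ Q := by linarith
  obtain ⟨e0, -⟩ := exists_dir (k := k) (by omega) (K := ∅) (by simp)
  have hκ : 0 ≤ κ := (apply_nonneg p _).trans (hKE e0 ∅ (by simp) (by simp))
  have hκ0 : 0 ≤ κ0 := by
    have hCQ : 0 ≤ C * Q := mul_nonneg (by linarith) (by linarith)
    refine (apply_nonneg p _).trans (hK0 0 (C * Q) (by simpa using hCQ) ?_)
    rw [zero_sub, abs_neg, abs_of_nonneg hCQ]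
    linarith
  have hred := red V B d g F Q G C L1 L2 l w w' Lb lp lm hG hL hC hC1 hL1 hL2
  have hfar := H776.stFar V p B d g F Q G C L1 L2 l w w' Lb lp lm κ0 hG hL hC hC1 hP.hw hP.hw'
    hL1 hL2 hK0
  have hmid := middle p B d g F Q G C l w w' Lb lp lm κ κP hG hP hL hC hC1 hκP hKE hKP
  set S1 := ∑ A ∈ (Icc (-L1) L2).powerset with A.card = 2 ∧ ¬ Fine F A, Dl B C lp lm A
  have h2 : 2 * p S1 ≤ 2 ^ (k ^ 2 * m + 2) * ((L1 : ℝ) + L2 + 1) * κ0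
      + 2 ^ (k ^ 2 * m + m + 4) * (2 * (Q : ℝ) + 1) * (k + 2) ^ 4 * (κ + κP) := by
    have h3 : p ((2:ℝ) • S1) = 2 * p S1 := by
      rw [map_smul_eq_mul, Real.norm_eq_abs, abs_two]
    rw [← h3, hred, map_neg_eq_map]
    exact (map_add_le_add p _ _).trans (add_le_add hfar hmid)
  have hL1' : (Q:ℝ) ≤ L1 := by exact_mod_cast hL1
  have hL2' : (Q:ℝ) ≤ L2 := by exact_mod_cast hL2
  have hQ1' : (1:ℝ) ≤ Q := by exact_mod_cast hQ1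
  have hk0 : (0:ℝ) ≤ k := Nat.cast_nonneg k
  have hk4 : (1:ℝ) ≤ (k + 2) ^ 4 := one_le_pow₀ (by linarith)
  set a : ℝ := 2 ^ (k ^ 2 * m + m + 4) with ha
  have ha0 : 0 ≤ a := by positivity
  have e1 : (2:ℝ) ^ (k ^ 2 * m + 2) ≤ a := pow_le_pow_right₀ (by norm_num) (by omega)
  have e2 : 2 ^ (k ^ 2 * m + 2) * ((L1 : ℝ) + L2 + 1) * κ0
      ≤ a * ((L1 : ℝ) + L2 + 1) * (k + 2) ^ 4 * κ0 := by
    refine mul_le_mul_of_nonneg_right ?_ hκ0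
    calc (2:ℝ) ^ (k ^ 2 * m + 2) * ((L1 : ℝ) + L2 + 1) ≤ a * ((L1 : ℝ) + L2 + 1) :=
          mul_le_mul_of_nonneg_right e1 (by linarith)
      _ = a * ((L1 : ℝ) + L2 + 1) * 1 := by ring
      _ ≤ a * ((L1 : ℝ) + L2 + 1) * (k + 2) ^ 4 :=
          mul_le_mul_of_nonneg_left hk4 (mul_nonneg ha0 (by linarith))
  have e3 : a * (2 * (Q : ℝ) + 1) * (k + 2) ^ 4 * (κ + κP)
      ≤ a * ((L1 : ℝ) + L2 + 1) * (k + 2) ^ 4 * (κ + κP) := by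
    refine mul_le_mul_of_nonneg_right ?_ (by linarith)
    refine mul_le_mul_of_nonneg_right ?_ (by linarith)
    exact mul_le_mul_of_nonneg_left (by linarith) ha0
  have e4 : 0 ≤ a * ((L1 : ℝ) + L2 + 1) * (k + 2) ^ 4 * (κ + κ0 + κP) := by
    have : (0:ℝ) ≤ (L1 : ℝ) + L2 + 1 := by linarith
    have : (0:ℝ) ≤ κ + κ0 + κP := by linarith
    positivity
  have e5 : a * ((L1 : ℝ) + L2 + 1) * (k + 2) ^ 4 * (κ + κ0 + κP)
      = a * ((L1 : ℝ) + L2 + 1) * (k + 2) ^ 4 * κ0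
        + a * ((L1 : ℝ) + L2 + 1) * (k + 2) ^ 4 * (κ + κP) := by ring
  have e6 : 0 ≤ p S1 := apply_nonneg p _
  linarith

end Vale.Agent.P321.H834
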