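import Mathlib

/-!
# Binary digits with signs: signed moments and digit Fubini (P321, LB2)

* `signed_moment` : `∑_{n : Fin m → Bool} (-1)^{|n|} (x + ∑_b [n b] s b)^i = 0` for `i < m`;
* `fubini_kill`   : for a seminorm `p`, if every fibre sum in the direction `e` is `≤ β`, the full
  signed sum over `n : E → Fin m → Bool` is `≤ 2^{m(|E|-1)} β`.
-/

namespace Vale.Agent.P321.H834

open Finset

/-- the sign `(-1)^{|n|}` of a digit vector -/
def sg {m : ℕ} (n : Fin m → Bool) : ℝ := ∏ b, (if n b then (-1 : ℝ) else 1)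

/-- the sign of a family of digit vectors -/
noncomputable def eps {E : Type*} [Fintype E] {m : ℕ} (n : E → Fin m → Bool) : ℝ := ∏ e, sg (n e)

/-- the shift `∑_b [n b] s b` -/
def dsum {R : Type*} [AddCommMonoid R] {m : ℕ} (s : Fin m → R) (n : Fin m → Bool) : R :=
  ∑ b, (if n b then s b else 0)

lemma abs_sg {m : ℕ} (n : Fin m → Bool) : |sg n| = 1 := by
  unfold sg
  rw [Finset.abs_prod]
  apply Finset.prod_eq_one
  intro b _
  split_ifs <;> simp

lemma sg_mul_self {m : ℕ} (n : Fin m → Bool) : sg n * sg n = 1 := by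
  unfold sg
  rw [← Finset.prod_mul_distrib]
  apply Finset.prod_eq_one
  intro b _
  split_ifs <;> simp

lemma abs_eps {E : Type*} [Fintype E] {m : ℕ} (n : E → Fin m → Bool) : |eps n| = 1 := by
  unfold eps
  rw [Finset.abs_prod]
  apply Finset.prod_eq_one
  intro b _
  exact abs_sg _

lemma eps_mul_self {E : Type*} [Fintype E] {m : ℕ} (n : E → Fin m → Bool) :
    eps n * eps n = 1 := by
  unfold eps
  rw [← Finset.prod_mul_distrib]
  apply Finset.prod_eq_one
  intro b _
  exact sg_mul_self _

/-- signed moments vanish below `m` -/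
theorem signed_moment {m : ℕ} (s : Fin m → ℝ) (x : ℝ) (i : ℕ) (hi : i < m) :
    ∑ n : Fin m → Bool, sg n * (x + dsum s n) ^ i = 0 := by
  induction m generalizing x i with
  | zero => omega
  | succ m ih =>
    rw [← (Fin.consEquiv (fun _ : Fin (m+1) => Bool)).sum_comp]
    rw [Fintype.sum_prod_type]
    simp only [Fintype.sum_bool]
    have h0 : ∀ (b : Bool) (n : Fin m → Bool),
        (Fin.consEquiv (fun _ : Fin (m+1) => Bool)) (b, n) = (Fin.cons b n : Fin (m+1) → Bool) :=
      fun _ _ => rfl
    simp only [h0]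
    have h1 : ∀ (b : Bool) (n : Fin m → Bool),
        sg (Fin.cons b n : Fin (m+1) → Bool) = (if b then (-1:ℝ) else 1) * sg n := by
      intro b n
      unfold sg
      rw [Fin.prod_univ_succ]
      simp
    have h2 : ∀ (b : Bool) (n : Fin m → Bool),
        dsum s (Fin.cons b n : Fin (m+1) → Bool)
          = (if b then s 0 else 0) + dsum (fun j => s j.succ) n := by
      intro b n
      unfold dsum
      rw [Fin.sum_univ_succ]
      simp
    simp only [h1, h2, if_true, Bool.false_eq_true, if_false]
    rw [← Finset.sum_add_distrib]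
    set s' : Fin m → ℝ := fun j => s j.succ
    have h3 : ∀ n : Fin m → Bool,
        (-1) * sg n * (x + (s 0 + dsum s' n)) ^ i + 1 * sg n * (x + (0 + dsum s' n)) ^ i
        = - ∑ j ∈ range i, ((s 0) ^ (i - j) * (i.choose j : ℝ)) * (sg n * (x + dsum s' n) ^ j) := by
      intro n
      have : x + (s 0 + dsum s' n) = (x + dsum s' n) + s 0 := by ring
      rw [this, add_pow, Finset.sum_range_succ]
      have e2 : ∑ j ∈ range i, ((s 0) ^ (i - j) * (i.choose j : ℝ)) * (sg n * (x + dsum s' n) ^ j)
          = sg n * ∑ j ∈ range i, (x + dsum s' n) ^ j * s 0 ^ (i - j) * (i.choose j : ℝ) := by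
        rw [Finset.mul_sum]
        apply Finset.sum_congr rfl
        intro j _
        ring
      rw [e2]
      simp
      ring
    rw [Finset.sum_congr rfl (fun n _ => h3 n), Finset.sum_neg_distrib, Finset.sum_comm]
    rw [neg_eq_zero]
    apply Finset.sum_eq_zero
    intro j hj
    rw [Finset.mem_range] at hj
    rw [← Finset.mul_sum, ih s' x j (by omega), mul_zero]

/-- integer version, with a natural-number shift -/
theorem signed_moment_nat {m : ℕ} (s : Fin m → ℕ) (x : ℕ) (i : ℕ) (hi : i < m) :
    ∑ n : Fin m → Bool, sg n * ((x + dsum s n : ℕ) : ℝ) ^ i = 0 := by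
  have := signed_moment (fun b => (s b : ℝ)) (x : ℝ) i hi
  rw [← this]
  apply Finset.sum_congr rfl
  intro n _
  congr 2
  push_cast
  congr 1
  unfold dsum
  push_cast
  apply Finset.sum_congr rfl
  intro b _
  split_ifs <;> simp

theorem signed_moment_int {m : ℕ} (s : Fin m → ℤ) (x : ℤ) (i : ℕ) (hi : i < m) :
    ∑ n : Fin m → Bool, sg n * ((x + dsum s n : ℤ) : ℝ) ^ i = 0 := by
  have := signed_moment (fun b => (s b : ℝ)) (x : ℝ) i hi
  rw [← this]
  apply Finset.sum_congr rfl
  intro n _
  congr 2
  push_cast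
  congr 1
  unfold dsum
  push_cast
  apply Finset.sum_congr rfl
  intro b _
  split_ifs <;> simp

lemma eps_update {E : Type*} [Fintype E] [DecidableEq E] {m : ℕ} (n : E → Fin m → Bool) (e : E)
    (d : Fin m → Bool) :
    eps (Function.update n e d) = (∏ e' ∈ univ.erase e, sg (n e')) * sg d := by
  unfold eps
  rw [← Finset.prod_erase_mul univ _ (Finset.mem_univ e)]
  congr 1
  · apply Finset.prod_congr rfl
    intro e' he'
    rw [Function.update_of_ne (Finset.ne_of_mem_erase he')]
  · rw [Function.update_self]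

/-- digit Fubini for a seminorm -/
theorem fubini_kill {A : Type*} [AddCommGroup A] [Module ℝ A] (p : Seminorm ℝ A)
    {E : Type*} [Fintype E] [DecidableEq E] {m : ℕ} (e : E)
    (F : (E → Fin m → Bool) → A) (β : ℝ)
    (h : ∀ n, p (∑ d : Fin m → Bool, sg d • F (Function.update n e d)) ≤ β) :
    p (∑ n : E → Fin m → Bool, eps n • F n) ≤ (2 : ℝ) ^ (m * (Fintype.card E - 1)) * β := by
  classical
  have key : ∑ n : E → Fin m → Bool, eps n • F n
      = ∑ r : ({j // j ≠ e} → Fin m → Bool), ∑ d : Fin m → Bool,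
          eps ((Equiv.funSplitAt e (Fin m → Bool)).symm (d, r)) • F ((Equiv.funSplitAt e (Fin m → Bool)).symm (d, r)) := by
    rw [← (Equiv.funSplitAt e (Fin m → Bool)).symm.sum_comp, Fintype.sum_prod_type, Finset.sum_comm]
  rw [key]
  have hr : ∀ r : ({j // j ≠ e} → Fin m → Bool), p (∑ d : Fin m → Bool,
      eps ((Equiv.funSplitAt e (Fin m → Bool)).symm (d, r)) • F ((Equiv.funSplitAt e (Fin m → Bool)).symm (d, r))) ≤ β := by
    intro r
    set n0 : E → Fin m → Bool := (Equiv.funSplitAt e (Fin m → Bool)).symm (fun _ => false, r) with hn0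
    have hu : ∀ d : Fin m → Bool, (Equiv.funSplitAt e (Fin m → Bool)).symm (d, r) = Function.update n0 e d := by
      intro d
      funext j
      by_cases hj : j = e
      · subst hj
        simp
      · simp [hn0, hj]
    have : ∑ d : Fin m → Bool, eps ((Equiv.funSplitAt e (Fin m → Bool)).symm (d, r)) • F ((Equiv.funSplitAt e (Fin m → Bool)).symm (d, r))
        = (∏ e' ∈ univ.erase e, sg (n0 e')) • ∑ d : Fin m → Bool, sg d • F (Function.update n0 e d) := by
      rw [Finset.smul_sum]
      apply Finset.sum_congr rfl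
      intro d _
      rw [hu d, eps_update, smul_smul]
    rw [this, map_smul_eq_mul]
    have habs : ‖∏ e' ∈ univ.erase e, sg (n0 e')‖ = 1 := by
      rw [Real.norm_eq_abs, Finset.abs_prod]
      exact Finset.prod_eq_one (fun b _ => abs_sg _)
    rw [habs, one_mul]
    exact h n0
  calc p (∑ r : ({j // j ≠ e} → Fin m → Bool), ∑ d : Fin m → Bool,
          eps ((Equiv.funSplitAt e (Fin m → Bool)).symm (d, r)) • F ((Equiv.funSplitAt e (Fin m → Bool)).symm (d, r)))
      ≤ ∑ r : ({j // j ≠ e} → Fin m → Bool), p (∑ d : Fin m → Bool,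
          eps ((Equiv.funSplitAt e (Fin m → Bool)).symm (d, r)) • F ((Equiv.funSplitAt e (Fin m → Bool)).symm (d, r))) :=
        Finset.le_sum_of_subadditive p (map_zero p).le (map_add_le_add p) _ _
    _ ≤ ∑ _r : ({j // j ≠ e} → Fin m → Bool), β := Finset.sum_le_sum (fun r _ => hr r)
    _ = (2 : ℝ) ^ (m * (Fintype.card E - 1)) * β := by
        rw [Finset.sum_const, nsmul_eq_mul, Finset.card_univ]
        congr 1
        rw [Fintype.card_fun]
        have h1 : Fintype.card (Fin m → Bool) = 2 ^ m := by
          simp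
        have h2 : Fintype.card {j // j ≠ e} = Fintype.card E - 1 := by
          rw [Fintype.card_subtype_compl]
          simp
        rw [h1, h2]
        push_cast
        rw [← pow_mul]

end Vale.Agent.P321.H834
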