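import Vale.Agent.P321.H834.CSpec
import Vale.Agent.P321.H834.Digits
import Vale.Agent.P321.H505.Train

/-!
# LB2, T-step: basic facts on trains (helper834)
-/

namespace Vale.Agent.P321.H834

open Finset Vale.Agent.P321.H576

lemma sg_eq {m : ℕ} (n : Fin m → Bool) : H576.sg n = H834.sg n := rfl

lemma sgE_eq {k m : ℕ} (n : E k → Fin m → Bool) : H576.sgE n = H834.eps n := rfl

lemma abs_sg' {m : ℕ} (n : Fin m → Bool) : |H576.sg n| = 1 := H834.abs_sg n

lemma abs_sgE {k m : ℕ} (n : E k → Fin m → Bool) : |H576.sgE n| = 1 := H834.abs_eps n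

lemma val_nonneg (b : Bool) : 0 ≤ val b := by unfold H576.val; split_ifs <;> simp

lemma val_le_one (b : Bool) : val b ≤ 1 := by unfold H576.val; split_ifs <;> simp

lemma abs_val_sub (b c : Bool) : |val b - val c| ≤ 1 := by
  unfold H576.val; cases b <;> cases c <;> simp

section Te

variable {m : ℕ}

lemma Te_sub (g a b : Fin m → ℤ) : Te g (fun j => a j - b j) = Te g a - Te g b := by
  unfold Te
  rw [← Finset.sum_sub_distrib]
  apply Finset.sum_congr rfl
  intro j _
  ring

lemma T0_sub (a b : Fin m → ℤ) : T0 (fun j => a j - b j) = T0 a - T0 b := by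
  unfold T0
  rw [← Finset.sum_sub_distrib]
  apply Finset.sum_congr rfl
  intro j _
  ring

lemma Ts_sub {k : ℕ} (g a b : E k → Fin m → ℤ) :
    Ts g (fun e j => a e j - b e j) = Ts g a - Ts g b := by
  unfold Ts
  rw [← Finset.sum_sub_distrib]
  apply Finset.sum_congr rfl
  intro e _
  exact Te_sub _ _ _

lemma Te_val_false (g : Fin m → ℤ) : Te g (fun _ => val false) = 0 := by
  unfold Te H576.val
  simp

lemma dvd_Te {D : ℤ} (g a : Fin m → ℤ) (h : ∀ b, D ∣ g b) : D ∣ Te g a := by
  unfold Te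
  exact Finset.dvd_sum fun b _ => (h b).mul_left _

lemma S_update {k : ℕ} (g : E k → Fin m → ℤ) (n : E k → Fin m → Bool) (e : E k)
    (d : Fin m → Bool) :
    S g (Function.update n e d)
      = S g (Function.update n e (fun _ => false)) + Te (g e) (fun b => val (d b)) := by
  classical
  have h : ∀ d : Fin m → Bool, S g (Function.update n e d)
      = (∑ e' ∈ univ.erase e, Te (g e') (fun b => val (n e' b)))
        + Te (g e) (fun b => val (d b)) := by
    intro d
    unfold S Ts
    rw [← Finset.sum_erase_add univ _ (Finset.mem_univ e)]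
    congr 1
    · apply Finset.sum_congr rfl
      intro e' he'
      simp only [Function.update_of_ne (Finset.ne_of_mem_erase he')]
    · simp only [Function.update_self]
  rw [h d, h (fun _ => false), Te_val_false, add_zero]

end Te

section act

variable {k m : ℕ} {d : Fin k → ℤ} {g : E k → Fin m → ℤ}

lemma Act_add_iff {i : Fin k} {t u : ℤ} (h : d i ∣ u) : Act d g i (t + u) ↔ Act d g i t := by
  unfold Act
  constructor
  · rintro ⟨n0, n, hn⟩
    refine ⟨n0, n, ?_⟩
    have : t - (Z n0 + S g n) = (t + u - (Z n0 + S g n)) - u := by ring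
    rw [this]
    exact dvd_sub hn h
  · rintro ⟨n0, n, hn⟩
    refine ⟨n0, n, ?_⟩
    have : t + u - (Z n0 + S g n) = (t - (Z n0 + S g n)) + u := by ring
    rw [this]
    exact dvd_add hn h

lemma mem_act {i : Fin k} {t : ℤ} : i ∈ act d g t ↔ Act d g i t := by
  unfold act
  simp

/-- the activity of the trains in `K` at `t` does not see multiples of their periods -/
lemma inter_act_add {K : Finset (Fin k)} {t u : ℤ} (h : ∀ i ∈ K, d i ∣ u) :
    K ∩ act d g (t + u) = K ∩ act d g t := by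
  ext i
  simp only [mem_inter, mem_act]
  constructor
  · rintro ⟨h1, h2⟩
    exact ⟨h1, (Act_add_iff (h i h1)).1 h2⟩
  · rintro ⟨h1, h2⟩
    exact ⟨h1, (Act_add_iff (h i h1)).2 h2⟩

lemma act_top {t : ℤ} (h : Top g t) : act d g t = univ := by
  ext i
  simp only [mem_act, mem_univ, iff_true]
  obtain ⟨n0, n, hn⟩ := h
  exact ⟨n0, n, by rw [hn, sub_self]; exact dvd_zero _⟩

/-- every set of at most two trains is contained in a direction -/
lemma exists_dir (hk : 2 ≤ k) {K : Finset (Fin k)} (hK : K.card ≤ 2) : ∃ e : E k, K ⊆ e.1 := by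
  obtain ⟨e, he, hc⟩ := Finset.exists_superset_card_eq hK (by simpa using hk)
  exact ⟨⟨e, hc⟩, he⟩

end act

section Gen

variable {k m : ℕ} {d : Fin k → ℤ} {g : E k → Fin m → ℤ} {F Q G : ℤ}

lemma card_E_le (k : ℕ) : Fintype.card (E k) ≤ k ^ 2 := by
  have h : Fintype.card (E k) = k.choose 2 := by
    rw [Fintype.card_subtype]
    have : (univ.filter fun x : Finset (Fin k) => x.card = 2) = powersetCard 2 univ := by
      ext x; simp [mem_powersetCard]
    rw [this, card_powersetCard, card_univ, Fintype.card_fin]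
  rw [h]
  exact Nat.choose_le_pow k 2

lemma Z_nonneg {m : ℕ} (n : Fin m → Bool) : 0 ≤ Z n := by
  unfold Z T0
  exact Finset.sum_nonneg fun b _ => mul_nonneg (val_nonneg _) (by positivity)

lemma geom3 (m : ℕ) : 2 * ∑ b : Fin m, (3 : ℤ) ^ (b : ℕ) + 1 = 3 ^ m := by
  rw [Fin.sum_univ_eq_sum_range (fun i => (3 : ℤ) ^ i) m]
  induction m with
  | zero => simp
  | succ m ih => rw [Finset.sum_range_succ, pow_succ]; linarith

lemma abs_T0_le {m : ℕ} (a : Fin m → ℤ) (c : ℤ) (hc : 0 ≤ c) (h : ∀ b, |a b| ≤ c) :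
    2 * |T0 a| ≤ c * 3 ^ m := by
  have h1 : |T0 a| ≤ ∑ b : Fin m, c * (3 : ℤ) ^ (b : ℕ) := by
    unfold T0
    refine (Finset.abs_sum_le_sum_abs _ _).trans (Finset.sum_le_sum fun b _ => ?_)
    rw [abs_mul, abs_of_nonneg (show (0:ℤ) ≤ 3 ^ (b : ℕ) by positivity)]
    exact mul_le_mul_of_nonneg_right (h b) (by positivity)
  rw [← Finset.mul_sum] at h1
  have h2 := geom3 m
  have h3 : c * (2 * ∑ b : Fin m, (3 : ℤ) ^ (b : ℕ)) ≤ c * 3 ^ m :=
    mul_le_mul_of_nonneg_left (by linarith) hc
  linarith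

lemma abs_T0_val {m : ℕ} (n : Fin m → Bool) : 2 * |Z n| ≤ 3 ^ m := by
  have := abs_T0_le (fun b => val (n b)) 1 (by norm_num) (fun b => by
    rw [abs_of_nonneg (val_nonneg _)]; exact val_le_one _)
  simpa [Z] using this

theorem gen_Fpos (h : Gen d g F Q G) : 1 ≤ F := by
  have := h.F3
  have h3 : (1 : ℤ) ≤ 3 ^ m := one_le_pow₀ (by norm_num)
  linarith

theorem gen_G0 (h : Gen d g F Q G) : 0 ≤ G := by
  obtain ⟨e, -⟩ := exists_dir (k := k) (by have := h.k3; omega) (K := ∅) (by simp)
  have h1 := h.m1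
  exact (h.g0 e ⟨0, by omega⟩).trans (h.gG e ⟨0, by omega⟩)

theorem gen_Z_le (h : Gen d g F Q G) (n : Fin m → Bool) : 2 * |Z n| ≤ F :=
  (abs_T0_val n).trans h.F3

theorem gen_S_nonneg (h : Gen d g F Q G) (n : E k → Fin m → Bool) : 0 ≤ S g n := by
  unfold S Ts Te
  exact Finset.sum_nonneg fun e _ => Finset.sum_nonneg fun b _ =>
    mul_nonneg (val_nonneg _) (h.g0 e b)

theorem gen_S_le (h : Gen d g F Q G) (n : E k → Fin m → Bool) : 16 * S g n ≤ Q := by
  have hG := gen_G0 h
  have h1 : S g n ≤ ∑ _e : E k, ∑ _b : Fin m, G := by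
    unfold S Ts Te
    refine Finset.sum_le_sum fun e _ => Finset.sum_le_sum fun b _ => ?_
    calc val (n e b) * g e b ≤ 1 * g e b := mul_le_mul_of_nonneg_right (val_le_one _) (h.g0 e b)
      _ ≤ G := by rw [one_mul]; exact h.gG e b
  simp only [sum_const, card_univ, Fintype.card_fin, nsmul_eq_mul] at h1
  have h2 : (Fintype.card (E k) : ℤ) ≤ (k : ℤ) ^ 2 := by exact_mod_cast card_E_le k
  have h3 := h.GQ
  have h4 : (Fintype.card (E k) : ℤ) * (m * G) ≤ (k : ℤ) ^ 2 * (m * G) :=
    mul_le_mul_of_nonneg_right h2 (by positivity)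
  have h5 : 16 * ((k : ℤ) ^ 2 * (m * G)) = 16 * (k ^ 2 * m * G) := by ring
  linarith

/-- the tops determine their digits -/
theorem gen_inj (h : Gen d g F Q G) {n0 n0' : Fin m → Bool} {n n' : E k → Fin m → Bool}
    (he : Z n0 + S g n = Z n0' + S g n') : n0 = n0' ∧ n = n' := by
  have key : ∀ i : Fin k, (∀ b, val (n0 b) - val (n0' b) = 0) ∧ ∀ e : E k, i ∉ e.1 → ∀ b,
      val (n e b) - val (n' e b) = 0 := by
    intro i
    apply h.gen1 i (fun b => val (n0 b) - val (n0' b)) (fun e b => val (n e b) - val (n' e b))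
    · intro b
      exact (abs_val_sub _ _).trans (by norm_num)
    · intro e b
      exact abs_val_sub _ _
    · rw [T0_sub, Ts_sub]
      have : T0 (fun j => val (n0 j)) - T0 (fun j => val (n0' j))
          + (Ts g (fun e j => val (n e j)) - Ts g (fun e j => val (n' e j))) = 0 := by
        unfold Z S at he
        linarith
      rw [this]
      exact dvd_zero _
  have hv : ∀ b c : Bool, val b - val c = 0 → b = c := by
    intro b c; unfold H576.val; cases b <;> cases c <;> simp
  have hk := h.k3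
  constructor
  · funext b
    exact hv _ _ ((key ⟨0, by omega⟩).1 b)
  · funext e b
    have : ∃ i : Fin k, i ∉ e.1 := by
      by_contra hcon
      push Not at hcon
      have h1 : (univ : Finset (Fin k)) ⊆ e.1 := fun i _ => hcon i
      have h2 := Finset.card_le_card h1
      rw [e.2, card_univ, Fintype.card_fin] at h2
      omega
    obtain ⟨i, hi⟩ := this
    exact hv _ _ ((key i).2 e hi b)

/-- in the centre, a cell which is not a top has at most two active trains -/
theorem gen_act_card (h : Gen d g F Q G) {t : ℤ} (ht : |t| ≤ Q) (hn : ¬ Top g t) :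
    (act d g t).card ≤ 2 := by
  by_contra hcon
  push Not at hcon
  obtain ⟨i, hi, j, hj, l, hl, h1, h2, h3⟩ := (Finset.two_lt_card).1 hcon
  exact hn (h.gen3 t ht i j l h1 h2 h3 (mem_act.1 hi) (mem_act.1 hj) (mem_act.1 hl))

end Gen

section extrap

/-- the exact cell identity -/
theorem cell_id {A : Type*} [AddCommGroup A] {k : ℕ} (hk : 2 ≤ k) (φ : Finset (Fin k) → A)
    (J : Finset (Fin k)) (hJ : J.card ≤ 2) :
    ∑ K ∈ H505.smallK k, H505.co k K.card • φ (K ∩ J) = φ J :=
  H505.cell_identity' hk φ J hJ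

lemma sum_abs_co_real (k : ℕ) :
    ∑ K ∈ H505.smallK k, |(H505.co k K.card : ℝ)| ≤ 2 * (k:ℝ)^2 := by
  have := H505.sum_abs_co k
  have h4 : ((∑ K ∈ H505.smallK k, |H505.co k K.card| : ℤ) : ℝ) ≤ ((2 * (k:ℤ)^2 : ℤ) : ℝ) := by
    exact_mod_cast this
  push_cast at h4
  exact h4

end extrap

end Vale.Agent.P321.H834
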