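import Vale.Agent.P321.H576.TSpec

/-!
# LB2, T-step, coarse pairs (C): reduction to ordered pairs, FAR and MIDDLE (helper834)
-/

namespace Vale.Agent.P321.H834

open Finset Vale.Agent.P321.H576

section

variable {V : Type} [AddCommGroup V] [Module ℝ V]

/-- the ordered pair (top cell `T` carrying `δ_w - δ_w'`, other cell `t` carrying
`δ_{lm t} + δ_{lp t}`) -/
noncomputable def GG (B : Finset ℤ → V) (C : ℤ) (w w' : ℕ) (lp lm : ℤ → ℕ) (T t : ℤ) : V :=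
  (B {C * T + w, C * t + lm t} - B {C * T + w', C * t + lm t})
    + (B {C * T + w, C * t + lp t} - B {C * T + w', C * t + lp t})

end

/-- **REDUCTION** (helper834) -/
def StRed : Prop :=
  ∀ (V : Type) [AddCommGroup V] [Module ℝ V] (B : Finset ℤ → V)
    {k m : ℕ} (d : Fin k → ℤ) (g : E k → Fin m → ℤ) (F Q G C L1 L2 : ℤ)
    (l : Finset (Fin k) → ℕ) (w w' Lb : ℕ) (lp lm : ℤ → ℕ),
    Gen d g F Q G → Lab d g Q l w w' Lb lp lm → 4 * (Lb : ℤ) ≤ C → 1 ≤ C →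
    Q ≤ L1 → Q ≤ L2 →
    (2 : ℝ) • (∑ A ∈ (Icc (-L1) L2).powerset with A.card = 2 ∧ ¬ Fine F A, Dl B C lp lm A)
      = - ((∑ n0 : Fin m → Bool, ∑ n : E k → Fin m → Bool, (sg n0 * sgE n) •
            ∑ t ∈ Icc (-L1) L2 with Q < 2 * |t - S g n|, GG B C w w' lp lm (Z n0 + S g n) t)
         + (∑ n0 : Fin m → Bool, ∑ n : E k → Fin m → Bool, (sg n0 * sgE n) •
            ∑ h ∈ Icc (-Q) Q with 2 * |h| ≤ Q ∧ 2 * F < |h - Z n0|,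
              GG B C w w' lp lm (Z n0 + S g n) (S g n + h)))

/-- **FAR** (helper535) -/
def StFar : Prop :=
  ∀ (V : Type) [AddCommGroup V] [Module ℝ V] (p : Seminorm ℝ V) (B : Finset ℤ → V)
    {k m : ℕ} (d : Fin k → ℤ) (g : E k → Fin m → ℤ) (F Q G C L1 L2 : ℤ)
    (l : Finset (Fin k) → ℕ) (w w' Lb : ℕ) (lp lm : ℤ → ℕ) (κ0 : ℝ),
    Gen d g F Q G → Lab d g Q l w w' Lb lp lm → 4 * (Lb : ℤ) ≤ C → 1 ≤ C →
    w ≤ Lb → w' ≤ Lb →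
    Q ≤ L1 → Q ≤ L2 → Kill0 p B m C Q κ0 →
    p (∑ n0 : Fin m → Bool, ∑ n : E k → Fin m → Bool, (sg n0 * sgE n) •
            ∑ t ∈ Icc (-L1) L2 with Q < 2 * |t - S g n|, GG B C w w' lp lm (Z n0 + S g n) t)
      ≤ 2 ^ (k ^ 2 * m + 2) * ((L1 : ℝ) + L2 + 1) * κ0

/-- **MIDDLE** (helper834) -/
def StMiddle : Prop :=
  ∀ (V : Type) [AddCommGroup V] [Module ℝ V] (p : Seminorm ℝ V) (B : Finset ℤ → V)
    {k m : ℕ} (d : Fin k → ℤ) (g : E k → Fin m → ℤ) (F Q G C : ℤ)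
    (l : Finset (Fin k) → ℕ) (w w' Lb : ℕ) (lp lm : ℤ → ℕ) (κ κP : ℝ),
    Gen d g F Q G → PR m l w w' Lb → Lab d g Q l w w' Lb lp lm → 4 * (Lb : ℤ) ≤ C → 1 ≤ C →
    KillE p B g C Q κ → KillP p B m Lb C Q F κP →
    p (∑ n0 : Fin m → Bool, ∑ n : E k → Fin m → Bool, (sg n0 * sgE n) •
            ∑ h ∈ Icc (-Q) Q with 2 * |h| ≤ Q ∧ 2 * F < |h - Z n0|,
              GG B C w w' lp lm (Z n0 + S g n) (S g n + h))
      ≤ 2 ^ (k ^ 2 * m + m + 4) * (2 * (Q : ℝ) + 1) * (k + 2) ^ 4 * (κ + κP)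

end Vale.Agent.P321.H834
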