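import Vale.Agent.P321.H834.TBasic

/-!
# LB2, T-step: reduction of the coarse pairs to ordered pairs (helper834)
-/

namespace Vale.Agent.P321.H834

open Finset Vale.Agent.P321.H576

section pairs

variable {V : Type} [AddCommGroup V] [Module ℝ V]

/-- unordered pairs versus ordered pairs -/
theorem two_smul_sum_pairs (W : Finset ℤ) (P : ℤ → ℤ → Prop) [∀ s t, Decidable (P s t)]
    (Pr : Finset ℤ → Prop) [DecidablePred Pr]
    (hP : ∀ s t, s ≠ t → (Pr {s, t} ↔ P s t)) (hirr : ∀ s, ¬ P s s) (f : Finset ℤ → V) :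
    (2 : ℝ) • (∑ A ∈ W.powerset with A.card = 2 ∧ Pr A, f A)
      = ∑ s ∈ W, ∑ t ∈ W with P s t, f {s, t} := by
  classical
  have h1 : ∀ A ∈ W.powerset.filter (fun A => A.card = 2 ∧ Pr A), (2:ℝ) • f A = ∑ _s ∈ A, f A := by
    intro A hA
    rw [Finset.sum_const, (Finset.mem_filter.1 hA).2.1, two_smul, two_nsmul]
  rw [Finset.smul_sum, Finset.sum_congr rfl h1]
  rw [Finset.sum_comm' (s' := fun s => W.powerset.filter
    (fun A => (A.card = 2 ∧ Pr A) ∧ s ∈ A)) (t' := W)]
  · apply Finset.sum_congr rfl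
    intro s hs
    symm
    refine Finset.sum_bij (fun t _ => ({s, t} : Finset ℤ)) ?_ ?_ ?_ ?_
    · intro t ht
      rw [Finset.mem_filter] at ht
      have hne : s ≠ t := fun h => hirr s (by rw [← h] at ht; exact ht.2)
      rw [Finset.mem_filter, Finset.mem_powerset]
      refine ⟨?_, ⟨Finset.card_pair hne, (hP s t hne).2 ht.2⟩, by simp⟩
      intro x hx
      simp only [mem_insert, mem_singleton] at hx
      rcases hx with rfl | rfl
      · exact hs
      · exact ht.1
    · intro t ht t' ht' h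
      rw [Finset.mem_filter] at ht ht'
      have hne : s ≠ t := fun h => hirr s (by rw [← h] at ht; exact ht.2)
      have h2 : t ∈ ({s, t'} : Finset ℤ) := by rw [← h]; simp
      simp only [mem_insert, mem_singleton] at h2
      rcases h2 with h2 | h2
      · exact absurd h2.symm hne
      · exact h2
    · intro A hA
      rw [Finset.mem_filter, Finset.mem_powerset] at hA
      obtain ⟨hAW, ⟨hc, hpr⟩, hsA⟩ := hA
      obtain ⟨x, y, hxy, rfl⟩ := Finset.card_eq_two.1 hc
      simp only [mem_insert, mem_singleton] at hsA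
      rcases hsA with rfl | rfl
      · refine ⟨y, ?_, rfl⟩
        rw [Finset.mem_filter]
        exact ⟨hAW (by simp), (hP _ _ hxy).1 hpr⟩
      · refine ⟨x, ?_, ?_⟩
        · rw [Finset.mem_filter]
          refine ⟨hAW (by simp), (hP _ _ hxy.symm).1 ?_⟩
          rw [Finset.pair_comm]
          exact hpr
        · exact Finset.pair_comm _ _
    · intro t ht
      rfl
  · intro A s
    simp only [Finset.mem_filter, Finset.mem_powerset]
    constructor
    · rintro ⟨⟨h1, h2, h3⟩, h4⟩
      exact ⟨⟨h1, ⟨h2, h3⟩, h4⟩, h1 h4⟩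
    · rintro ⟨⟨h1, ⟨h2, h3⟩, h4⟩, h5⟩
      exact ⟨⟨h1, h2, h3⟩, h4⟩

end pairs

section

variable {V : Type} [AddCommGroup V] [Module ℝ V] {k m : ℕ} {d : Fin k → ℤ}
  {g : E k → Fin m → ℤ} {F Q G C : ℤ}
  {l : Finset (Fin k) → ℕ} {w w' Lb : ℕ} {lp lm : ℤ → ℕ}

/-- `(δ_{lm s} - δ_{lp s}) ⊗ (δ_{lm t} + δ_{lp t})` -/
noncomputable def XX (B : Finset ℤ → V) (C : ℤ) (lp lm : ℤ → ℕ) (s t : ℤ) : V :=
  (B {C * s + lm s, C * t + lm t} - B {C * s + lp s, C * t + lm t})
    + (B {C * s + lm s, C * t + lp t} - B {C * s + lp s, C * t + lp t})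

omit [Module ℝ V] in
lemma pos_pair (l : ℤ → ℕ) (s t : ℤ) : pos C l {s, t} = {C * s + l s, C * t + l t} := by
  unfold pos
  rw [image_insert, image_singleton]

lemma XX_add (B : Finset ℤ → V) (s t : ℤ) :
    XX B C lp lm s t + XX B C lp lm t s = (2:ℝ) • Dl B C lp lm {s, t} := by
  unfold XX Dl
  rw [pos_pair, pos_pair, Finset.pair_comm (C * t + lm t) (C * s + lm s),
    Finset.pair_comm (C * t + lp t) (C * s + lm s), Finset.pair_comm (C * t + lm t) (C * s + lp s),
    Finset.pair_comm (C * t + lp t) (C * s + lp s), two_smul]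
  abel

omit [Module ℝ V] in
lemma XX_not_top (hL : Lab d g Q l w w' Lb lp lm) (B : Finset ℤ → V) {s : ℤ} (hs : ¬ Top g s)
    (t : ℤ) : XX B C lp lm s t = 0 := by
  unfold XX
  rw [hL.eq s hs, sub_self, sub_self, add_zero]

lemma XX_top (hL : Lab d g Q l w w' Lb lp lm) (B : Finset ℤ → V)
    (n0 : Fin m → Bool) (n : E k → Fin m → Bool) (t : ℤ) :
    XX B C lp lm (Z n0 + S g n) t
      = - ((H576.sg n0 * sgE n) • GG B C w w' lp lm (Z n0 + S g n) t) := by
  have habs : |H576.sg n0 * sgE n| = 1 := by rw [abs_mul, abs_sg', abs_sgE, one_mul]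
  rcases eq_or_eq_neg_of_abs_eq habs with h | h
  · obtain ⟨h2, h3⟩ := hL.top1 n0 n h
    rw [h]
    unfold XX GG
    rw [h2, h3, one_smul]
    abel
  · obtain ⟨h2, h3⟩ := hL.top2 n0 n h
    rw [h]
    unfold XX GG
    rw [h2, h3, neg_one_smul, neg_neg]

theorem Dl_ordered (hF : 0 ≤ F) (W : Finset ℤ) (B : Finset ℤ → V) :
    (2 : ℝ) • (∑ A ∈ W.powerset with A.card = 2 ∧ ¬ Fine F A, Dl B C lp lm A)
      = ∑ s ∈ W, ∑ t ∈ W with 2 * F < |s - t|, XX B C lp lm s t := by
  rw [two_smul_sum_pairs W (fun s t => 2 * F < |s - t|) (fun A => ¬ Fine F A) ?_ ?_]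
  · -- symmetrise
    have h2 : ∀ s ∈ W, ∀ t ∈ W.filter (fun t => 2 * F < |s - t|), Dl B C lp lm {s, t}
        = (1/2 : ℝ) • (XX B C lp lm s t + XX B C lp lm t s) := by
      intro s _ t _
      rw [XX_add, smul_smul]
      norm_num
    rw [Finset.sum_congr rfl (fun s hs => Finset.sum_congr rfl (h2 s hs))]
    simp only [← Finset.smul_sum, Finset.sum_add_distrib]
    have h3 : ∑ s ∈ W, ∑ t ∈ W with 2 * F < |s - t|, XX B C lp lm t s
        = ∑ s ∈ W, ∑ t ∈ W with 2 * F < |s - t|, XX B C lp lm s t := by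
      rw [Finset.sum_comm' (s' := fun s => W.filter (fun t => 2 * F < |s - t|)) (t' := W)]
      intro x y
      simp only [Finset.mem_filter]
      constructor
      · rintro ⟨h1, h2, h3⟩
        exact ⟨⟨h1, by rwa [abs_sub_comm]⟩, h2⟩
      · rintro ⟨⟨h1, h2⟩, h3⟩
        exact ⟨h1, h3, by rwa [abs_sub_comm]⟩
    rw [h3, ← two_smul ℝ, smul_smul]
    norm_num
  · intro s t hst
    unfold Fine
    constructor
    · intro h
      by_contra hcon
      push Not at hcon
      apply h
      intro x hx y hy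
      simp only [mem_insert, mem_singleton] at hx hy
      rcases hx with rfl | rfl <;> rcases hy with rfl | rfl
      · simp; exact hF
      · exact hcon
      · rw [abs_sub_comm]; exact hcon
      · simp; exact hF
    · intro h hf
      have := hf s (by simp) t (by simp)
      linarith
  · intro s h
    simp at h
    linarith

omit [Module ℝ V] in
/-- sums over cells supported on tops -/
theorem sum_tops (hG : Gen d g F Q G) {L1 L2 : ℤ} (h1 : Q ≤ L1) (h2 : Q ≤ L2) (f : ℤ → V)
    (hf : ∀ s, ¬ Top g s → f s = 0) :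
    ∑ s ∈ Icc (-L1) L2, f s
      = ∑ n0 : Fin m → Bool, ∑ n : E k → Fin m → Bool, f (Z n0 + S g n) := by
  classical
  have hF := gen_Fpos hG
  have hFQ := hG.FQ
  rw [← Fintype.sum_prod_type' (f := fun n0 n => f (Z n0 + S g n))]
  symm
  refine Finset.sum_of_injOn (fun x : (Fin m → Bool) × (E k → Fin m → Bool) => Z x.1 + S g x.2)
    ?_ ?_ ?_ ?_
  · intro x _ y _ hxy
    obtain ⟨h3, h4⟩ := gen_inj hG hxy
    exact Prod.ext h3 h4
  · intro x _
    have h3 := Z_nonneg x.1
    have h4 := gen_Z_le hG x.1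
    have h5 := gen_S_nonneg hG x.2
    have h6 := gen_S_le hG x.2
    rw [abs_of_nonneg h3] at h4
    simp only [Finset.coe_Icc, Set.mem_Icc]
    constructor <;> linarith
  · intro s _ hs
    apply hf
    rintro ⟨n0, n, rfl⟩
    exact hs ⟨(n0, n), by simp, rfl⟩
  · intro x _
    rfl

end

/-- **REDUCTION** -/
theorem red : StRed := by
  intro V _ _ B k m d g F Q G C L1 L2 l w w' Lb lp lm hG hL hC hC1 hL1 hL2
  classical
  have hF := gen_Fpos hG
  have hFQ := hG.FQ
  rw [Dl_ordered (by linarith) _ B]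
  rw [sum_tops hG hL1 hL2 (fun s => ∑ t ∈ Icc (-L1) L2 with 2 * F < |s - t|, XX B C lp lm s t)
    (fun s hs => Finset.sum_eq_zero fun t _ => XX_not_top hL B hs t)]
  rw [← Finset.sum_add_distrib, ← Finset.sum_neg_distrib]
  apply Finset.sum_congr rfl
  intro n0 _
  rw [← Finset.sum_add_distrib, ← Finset.sum_neg_distrib]
  apply Finset.sum_congr rfl
  intro n _
  simp only [XX_top hL B n0 n]
  rw [Finset.sum_neg_distrib, ← Finset.smul_sum, ← smul_add]
  congr 2
  set T := Z n0 + S g n with hT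
  have hz1 := Z_nonneg n0
  have hz2 := gen_Z_le hG n0
  rw [abs_of_nonneg hz1] at hz2
  have hs1 := gen_S_nonneg hG n
  have hs2 := gen_S_le hG n
  rw [← Finset.sum_filter_add_sum_filter_not ((Icc (-L1) L2).filter (fun t => 2 * F < |T - t|))
    (fun t => Q < 2 * |t - S g n|)]
  congr 1
  · rw [Finset.filter_filter]
    apply Finset.sum_congr _ (fun _ _ => rfl)
    ext t
    simp only [Finset.mem_filter]
    constructor
    · rintro ⟨h1, _, h3⟩
      exact ⟨h1, h3⟩
    · rintro ⟨h1, h3⟩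
      refine ⟨h1, ?_, h3⟩
      have h4 : |t - S g n| ≤ |T - t| + |Z n0| := by
        have : t - S g n = -(T - t) + Z n0 := by rw [hT]; ring
        rw [this]
        refine (abs_add_le _ _).trans ?_
        rw [abs_neg]
      rw [abs_of_nonneg hz1] at h4
      linarith
  · rw [Finset.filter_filter]
    refine Finset.sum_bij' (fun t _ => t - S g n) (fun h _ => S g n + h) ?_ ?_ ?_ ?_ ?_
    · intro t ht
      simp only [Finset.mem_filter, Finset.mem_Icc, not_lt] at ht ⊢
      obtain ⟨_, h2, h3⟩ := ht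
      have h4 : |t - S g n| ≤ Q := by
        have := abs_nonneg (t - S g n)
        linarith
      refine ⟨abs_le.1 h4, h3, ?_⟩
      have : t - S g n - Z n0 = -(T - t) := by rw [hT]; ring
      rw [this, abs_neg]
      exact h2
    · intro h hh
      simp only [Finset.mem_filter, Finset.mem_Icc, not_lt] at hh ⊢
      obtain ⟨_, h2, h3⟩ := hh
      have h4 := abs_le.1 (show |h| ≤ Q / 2 by omega)
      refine ⟨⟨by omega, by omega⟩, ?_, ?_⟩
      · have : T - (S g n + h) = -(h - Z n0) := by rw [hT]; ring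
        rw [this, abs_neg]
        exact h3
      · have : S g n + h - S g n = h := by ring
        rw [this]
        exact h2
    · intro t _
      ring
    · intro h _
      ring
    · intro t _
      rw [show S g n + (t - S g n) = t by ring]

end Vale.Agent.P321.H834
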